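import Mathlib

/-!
The operator Cauchy formula on a convex polygon whose edges are separated from the numerical range.
-/

open Complex
open scoped InnerProductSpace ComplexConjugate

namespace Vale.Agent.P123

variable {H : Type*} [NormedAddCommGroup H] [InnerProductSpace ℂ H]

/-- The point `s` is separated from the numerical range of `B` in direction `n` by `e`. -/
def Coer (B : H →L[ℂ] H) (n s : ℂ) (e : ℝ) : Prop :=
  ∀ w : H, e * ‖w‖ ^ 2 ≤ (conj n * ⟪w, (algebraMap ℂ (H →L[ℂ] H) s - B) w⟫_ℂ).re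

lemma Coer.lower {B : H →L[ℂ] H} {n s : ℂ} {e : ℝ} (h : Coer B n s e) (hn : ‖n‖ = 1) (w : H) :
    e * ‖w‖ ^ 2 ≤ ‖⟪w, (algebraMap ℂ (H →L[ℂ] H) s - B) w⟫_ℂ‖ := by
  refine (h w).trans ((Complex.re_le_norm _).trans ?_)
  rw [norm_mul, Complex.norm_conj, hn, one_mul]

variable [CompleteSpace H]

lemma Coer.mem {B : H →L[ℂ] H} {n s : ℂ} {e : ℝ} (h : Coer B n s e) (hn : ‖n‖ = 1)
    (he : 0 < e) : s ∈ resolventSet ℂ B := by
  refine ContinuousLinearMap.isUnit_of_forall_le_norm_inner_map (𝕜 := ℂ) _ (c := ⟨e, he.le⟩) he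
    fun w => ?_
  rw [norm_inner_symm]
  have := h.lower hn w
  change ‖w‖ ^ 2 * e ≤ _
  linarith

omit [CompleteSpace H] in
lemma mul_resolvent {B : H →L[ℂ] H} {s : ℂ} (h : s ∈ resolventSet ℂ B) :
    (algebraMap ℂ (H →L[ℂ] H) s - B) * resolvent B s = 1 := Ring.mul_inverse_cancel _ h

omit [CompleteSpace H] in
lemma resolvent_mul {B : H →L[ℂ] H} {s : ℂ} (h : s ∈ resolventSet ℂ B) :
    resolvent B s * (algebraMap ℂ (H →L[ℂ] H) s - B) = 1 := Ring.inverse_mul_cancel _ h

lemma Coer.apply_res {B : H →L[ℂ] H} {n s : ℂ} {e : ℝ} (h : Coer B n s e) (hn : ‖n‖ = 1)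
    (he : 0 < e) (u : H) : (algebraMap ℂ (H →L[ℂ] H) s - B) (resolvent B s u) = u :=
  congrArg (fun S : H →L[ℂ] H => S u) (mul_resolvent (h.mem hn he))

lemma Coer.norm_le {B : H →L[ℂ] H} {n s : ℂ} {e : ℝ} (h : Coer B n s e) (hn : ‖n‖ = 1)
    (he : 0 < e) : ‖resolvent B s‖ ≤ e⁻¹ := by
  refine ContinuousLinearMap.opNorm_le_bound _ (by positivity) fun u => ?_
  have h1 := h.lower hn (resolvent B s u)
  rw [h.apply_res hn he] at h1
  have h2 := norm_inner_le_norm (𝕜 := ℂ) (resolvent B s u) u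
  rcases (norm_nonneg (resolvent B s u)).eq_or_lt with h0 | h0
  · rw [← h0]; positivity
  · rw [inv_mul_eq_div, le_div_iff₀ he]
    nlinarith

lemma Coer.pos {B : H →L[ℂ] H} {n s : ℂ} {e : ℝ} (h : Coer B n s e) (hn : ‖n‖ = 1)
    (he : 0 < e) (u : H) : 0 ≤ (n * ⟪u, resolvent B s u⟫_ℂ).re := by
  have h1 := h (resolvent B s u)
  rw [h.apply_res hn he] at h1
  have h2 : (n * ⟪u, resolvent B s u⟫_ℂ).re = (conj n * ⟪resolvent B s u, u⟫_ℂ).re := by
    rw [← Complex.conj_re, map_mul, inner_conj_symm]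
  rw [h2]
  exact le_trans (by positivity) h1

omit [CompleteSpace H] in
lemma commute_resolvent {B S : H →L[ℂ] H} {s : ℂ} (h : s ∈ resolventSet ℂ B)
    (hS : S * B = B * S) : S * resolvent B s = resolvent B s * S := by
  have h1 : S * (algebraMap ℂ (H →L[ℂ] H) s - B) = (algebraMap ℂ (H →L[ℂ] H) s - B) * S := by
    rw [mul_sub, sub_mul, hS, Algebra.commutes]
  calc S * resolvent B s
      = (resolvent B s * (algebraMap ℂ (H →L[ℂ] H) s - B)) * S * resolvent B s := by
        rw [resolvent_mul h, one_mul]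
    _ = resolvent B s * S * ((algebraMap ℂ (H →L[ℂ] H) s - B) * resolvent B s) := by
        rw [mul_assoc (resolvent B s), ← h1]; noncomm_ring
    _ = resolvent B s * S := by rw [mul_resolvent h, mul_one]

omit [CompleteSpace H] in
lemma resolvent_sub {B B' : H →L[ℂ] H} {s : ℂ} (h : s ∈ resolventSet ℂ B)
    (h' : s ∈ resolventSet ℂ B') :
    resolvent B s - resolvent B' s = resolvent B s * (B - B') * resolvent B' s := by
  have e : B - B' = (algebraMap ℂ (H →L[ℂ] H) s - B') - (algebraMap ℂ (H →L[ℂ] H) s - B) := by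
    abel
  rw [e, mul_sub, sub_mul, resolvent_mul h, mul_assoc, mul_resolvent h', one_mul, mul_one]

/-- The point with parameter `t` on edge `j`. -/
noncomputable def edge (v : ℕ → ℂ) (j : ℕ) (t : ℝ) : ℂ := v j + (t : ℂ) * (v (j + 1) - v j)

lemma edge_zero (v : ℕ → ℂ) (j : ℕ) : edge v j 0 = v j := by simp [edge]

lemma edge_one (v : ℕ → ℂ) (j : ℕ) : edge v j 1 = v (j + 1) := by simp [edge]

lemma hasDerivAt_edge (v : ℕ → ℂ) (j : ℕ) (t : ℝ) : HasDerivAt (edge v j) (v (j + 1) - v j) t := by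
  have h := ((hasDerivAt_id t).ofReal_comp.mul_const (v (j + 1) - v j)).const_add (v j)
  rw [Complex.ofReal_one, one_mul] at h
  exact h

@[fun_prop]
lemma continuous_edge (v : ℕ → ℂ) (j : ℕ) : Continuous (edge v j) :=
  continuous_iff_continuousAt.mpr fun t => (hasDerivAt_edge v j t).continuousAt

lemma hasDerivAt_res_edge {B : H →L[ℂ] H} {v : ℕ → ℂ} {j : ℕ} {t : ℝ}
    (h : edge v j t ∈ resolventSet ℂ B) :
    HasDerivAt (fun t => resolvent B (edge v j t))
      ((v (j + 1) - v j) • (-resolvent B (edge v j t) ^ 2)) t :=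
  (spectrum.hasDerivAt_resolvent_const_left h).scomp t (hasDerivAt_edge v j t)

lemma continuous_res_edge {B : H →L[ℂ] H} {v : ℕ → ℂ} {j : ℕ}
    (h : ∀ t, edge v j t ∈ resolventSet ℂ B) : Continuous fun t => resolvent B (edge v j t) :=
  continuous_iff_continuousAt.mpr fun t => (hasDerivAt_res_edge (h t)).continuousAt

/-- The contour integral of the squared resolvent over a closed polygon vanishes. -/
lemma sum_res_sq {B : H →L[ℂ] H} {v : ℕ → ℂ} {N : ℕ} (hper : v N = v 0)
    (h : ∀ j t, edge v j t ∈ resolventSet ℂ B) :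
    ∑ j ∈ Finset.range N, ∫ t in (0 : ℝ)..1,
      (v (j + 1) - v j) • (-resolvent B (edge v j t) ^ 2) = 0 := by
  have : ∀ j, ∫ t in (0 : ℝ)..1, (v (j + 1) - v j) • (-resolvent B (edge v j t) ^ 2) =
      resolvent B (v (j + 1)) - resolvent B (v j) := by
    intro j
    have hc := continuous_res_edge (h j)
    rw [intervalIntegral.integral_eq_sub_of_hasDerivAt (fun t _ => hasDerivAt_res_edge (h j t))
      (Continuous.intervalIntegrable (by fun_prop) _ _), edge_zero, edge_one]
  simp only [this]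
  rw [Finset.sum_range_sub (fun j => resolvent B (v j)), hper, sub_self]

lemma sum_pow_edge {v : ℕ → ℂ} {N : ℕ} (hper : v N = v 0) (k : ℕ) :
    ∑ j ∈ Finset.range N, ∫ t in (0 : ℝ)..1, (v (j + 1) - v j) * edge v j t ^ k = 0 := by
  have : ∀ j, ∫ t in (0 : ℝ)..1, (v (j + 1) - v j) * edge v j t ^ k =
      v (j + 1) ^ (k + 1) / (k + 1) - v j ^ (k + 1) / (k + 1) := by
    intro j
    have hd : ∀ t ∈ Set.uIcc (0 : ℝ) 1, HasDerivAt (fun t => edge v j t ^ (k + 1) / (k + 1))
        ((v (j + 1) - v j) * edge v j t ^ k) t := by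
      intro t _
      have h := ((hasDerivAt_edge v j t).fun_pow (k + 1)).div_const ((k : ℂ) + 1)
      have : (k : ℂ) + 1 ≠ 0 := by exact_mod_cast Nat.succ_ne_zero k
      refine h.congr_deriv ?_
      simp only [Nat.cast_add, Nat.cast_one, add_tsub_cancel_right]
      field_simp
    rw [intervalIntegral.integral_eq_sub_of_hasDerivAt hd
      (Continuous.intervalIntegrable (by fun_prop) _ _), edge_zero, edge_one]
  simp only [this]
  rw [Finset.sum_range_sub (fun j => v j ^ (k + 1) / ((k : ℂ) + 1)), hper, sub_self]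

/-- The contour integral of `s ^ k` times the resolvent. -/
noncomputable def contour (B : H →L[ℂ] H) (v : ℕ → ℂ) (N : ℕ) (g : ℂ → ℂ) : H →L[ℂ] H :=
  ∑ j ∈ Finset.range N, ∫ t in (0 : ℝ)..1,
    (g (edge v j t) * (v (j + 1) - v j)) • resolvent B (edge v j t)

lemma const_of_sq_bound {E : Type*} [NormedAddCommGroup E] (φ : ℝ → E) (K : ℝ)
    (h : ∀ s ∈ Set.Icc (0 : ℝ) 1, ∀ s' ∈ Set.Icc (0 : ℝ) 1, ‖φ s - φ s'‖ ≤ K * (s - s') ^ 2) :
    φ 1 = φ 0 := by
  have key : ∀ m : ℕ, 0 < m → dist (φ 0) (φ 1) ≤ K / m := by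
    intro m hm
    have hm' : (0 : ℝ) < m := by exact_mod_cast hm
    have h1 := dist_le_range_sum_dist (fun i : ℕ => φ (i / m)) m
    simp only [Nat.cast_zero, zero_div, div_self hm'.ne'] at h1
    refine h1.trans ?_
    have h2 : ∀ i ∈ Finset.range m, dist (φ (i / m)) (φ ((i + 1 : ℕ) / m)) ≤ K / m ^ 2 := by
      intro i hi
      have hi' : (i : ℝ) + 1 ≤ m := by exact_mod_cast Finset.mem_range.mp hi
      have hi0 : (0 : ℝ) ≤ i := Nat.cast_nonneg i
      rw [dist_eq_norm]
      refine (h _ ⟨by positivity, by rw [div_le_one hm']; linarith⟩ _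
        ⟨by positivity, by rw [div_le_one hm']; push_cast; linarith⟩).trans (le_of_eq ?_)
      push_cast
      field_simp
      ring
    refine (Finset.sum_le_card_nsmul _ _ _ h2).trans (le_of_eq ?_)
    simp only [Finset.card_range, nsmul_eq_mul]
    field_simp
  have hlim : Filter.Tendsto (fun m : ℕ => K / m) Filter.atTop (nhds 0) :=
    tendsto_const_div_atTop_nhds_zero_nat K
  have := ge_of_tendsto hlim (Filter.eventually_atTop.mpr ⟨1, fun m hm => key m hm⟩)
  exact (dist_le_zero.mp this).symm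

lemma contour_sub_le {B B' : H →L[ℂ] H} {v : ℕ → ℂ} {N : ℕ} (hper : v N = v 0) {M : ℝ}
    (h : ∀ j t, edge v j t ∈ resolventSet ℂ B) (h' : ∀ j t, edge v j t ∈ resolventSet ℂ B')
    (hM : ∀ j t, ‖resolvent B (edge v j t)‖ ≤ M) (hM' : ∀ j t, ‖resolvent B' (edge v j t)‖ ≤ M)
    (hc : (B - B') * B = B * (B - B')) :
    ‖contour B v N (fun _ => 1) - contour B' v N (fun _ => 1)‖ ≤
      (∑ j ∈ Finset.range N, ‖v (j + 1) - v j‖) * M ^ 3 * ‖B - B'‖ ^ 2 := by
  have hM0 : 0 ≤ M := (norm_nonneg _).trans (hM 0 0)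
  have h0 := congrArg (fun S => (B - B') * S) (sum_res_sq hper h)
  simp only [mul_zero, Finset.mul_sum] at h0
  rw [← add_zero (contour B v N (fun _ => 1) - contour B' v N (fun _ => 1)), ← h0, contour,
    contour, ← Finset.sum_sub_distrib, ← Finset.sum_add_distrib, Finset.sum_mul, Finset.sum_mul]
  refine norm_sum_le_of_le _ fun j _ => ?_
  have c1 := continuous_res_edge (h j)
  have c2 := continuous_res_edge (h' j)
  have e1 := ((ContinuousLinearMap.mul ℂ (H →L[ℂ] H)) (B - B')).intervalIntegral_comp_comm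
    (μ := MeasureTheory.volume) (a := 0) (b := 1)
    (f := fun t => (v (j + 1) - v j) • (-resolvent B (edge v j t) ^ 2))
    (Continuous.intervalIntegrable (by fun_prop) _ _)
  simp only [ContinuousLinearMap.mul_apply'] at e1
  rw [← e1, ← intervalIntegral.integral_sub (Continuous.intervalIntegrable (by fun_prop) _ _)
    (Continuous.intervalIntegrable (by fun_prop) _ _),
    ← intervalIntegral.integral_add (Continuous.intervalIntegrable (by fun_prop) _ _)
    (Continuous.intervalIntegrable (by fun_prop) _ _)]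
  have hb := intervalIntegral.norm_integral_le_of_norm_le_const (a := 0) (b := 1)
    (C := ‖v (j + 1) - v j‖ * M ^ 3 * ‖B - B'‖ ^ 2)
    (f := fun t => (1 * (v (j + 1) - v j)) • resolvent B (edge v j t) -
      (1 * (v (j + 1) - v j)) • resolvent B' (edge v j t) +
      (B - B') * (v (j + 1) - v j) • (-resolvent B (edge v j t) ^ 2)) (by
    intro t _
    set X := resolvent B (edge v j t) with hX
    set X' := resolvent B' (edge v j t) with hX'
    have r1 : X - X' = X * (B - B') * X' := resolvent_sub (h j t) (h' j t)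
    have r2 : (B - B') * X = X * (B - B') := commute_resolvent (h j t) hc
    have r3 : X - X' + (B - B') * (-X ^ 2) = -(X * (B - B') * (X * (B - B') * X')) := by
      rw [← r1, mul_neg, sq, ← mul_assoc, r2, mul_sub (X * (B - B')), ← r1]
      abel
    rw [one_mul, mul_smul_comm, ← smul_sub, ← smul_add, r3, norm_smul, norm_neg,
      mul_assoc ‖v (j + 1) - v j‖]
    gcongr
    have a1 : ‖X‖ ≤ M := hM j t
    have a2 : ‖X'‖ ≤ M := hM' j t
    calc ‖X * (B - B') * (X * (B - B') * X')‖
        ≤ ‖X‖ * ‖B - B'‖ * (‖X‖ * ‖B - B'‖ * ‖X'‖) := by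
          refine (norm_mul_le _ _).trans ?_
          gcongr
          · exact norm_mul_le _ _
          · refine (norm_mul_le _ _).trans ?_
            gcongr
            exact norm_mul_le _ _
      _ ≤ M * ‖B - B'‖ * (M * ‖B - B'‖ * M) := by gcongr
      _ = M ^ 3 * ‖B - B'‖ ^ 2 := by ring)
  simpa using hb

omit [CompleteSpace H] in
lemma resolvent_scalar {z s : ℂ} (h : s ≠ z) :
    resolvent (algebraMap ℂ (H →L[ℂ] H) z) s = algebraMap ℂ (H →L[ℂ] H) (s - z)⁻¹ := by
  have h0 : s - z ≠ 0 := sub_ne_zero.mpr h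
  have hu : s ∈ resolventSet ℂ (algebraMap ℂ (H →L[ℂ] H) z) := by
    change IsUnit _
    rw [← map_sub]
    exact (IsUnit.mk0 _ h0).map _
  have h1 := resolvent_mul hu
  rw [← map_sub] at h1
  calc resolvent (algebraMap ℂ (H →L[ℂ] H) z) s
      = resolvent (algebraMap ℂ (H →L[ℂ] H) z) s * (algebraMap ℂ (H →L[ℂ] H) (s - z) *
        algebraMap ℂ (H →L[ℂ] H) (s - z)⁻¹) := by
        rw [← map_mul, mul_inv_cancel₀ h0, map_one, mul_one]
    _ = _ := by rw [← mul_assoc, h1, one_mul]

/-- The outer unit normal of edge `j`. -/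
noncomputable def nrm (d : ℝ) (j : ℕ) : ℂ := Complex.exp (((j * d : ℝ) : ℂ) * I)

lemma norm_nrm (d : ℝ) (j : ℕ) : ‖nrm d j‖ = 1 := Complex.norm_exp_ofReal_mul_I _

lemma nrm_succ (d : ℝ) (j : ℕ) : nrm d (j + 1) = nrm d j * Complex.exp ((d : ℂ) * I) := by
  rw [nrm, nrm, ← Complex.exp_add]; congr 1; push_cast; ring

lemma conj_nrm_mul (d : ℝ) (j : ℕ) : conj (nrm d j) * nrm d j = 1 := by
  rw [Complex.conj_mul', norm_nrm]; simp

lemma log_turn {a : ℂ} {d : ℝ} (hd0 : 0 ≤ d) (hd : d ≤ Real.pi / 2) (ha : 0 < a.re) :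
    Complex.log (a * Complex.exp ((d : ℂ) * I)) = Complex.log a + d * I := by
  have hpi := Real.pi_pos
  have ha0 : a ≠ 0 := by rintro rfl; simp at ha
  have hl : Complex.log (Complex.exp ((d : ℂ) * I)) = d * I :=
    Complex.log_exp (by simp; linarith) (by simp; linarith)
  have harg : Complex.arg (Complex.exp ((d : ℂ) * I)) = d := by
    have := congrArg Complex.im hl
    simpa [Complex.log_im] using this
  have h1 := abs_lt.mp (Complex.abs_arg_lt_pi_div_two_iff.mpr (Or.inl ha))
  rw [(Complex.log_mul_eq_add_log_iff ha0 (Complex.exp_ne_zero _)).mpr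
    (by rw [harg]; constructor <;> linarith [h1.1, h1.2]), hl]

/-- The winding number of the polygon around a point strictly inside all edge lines is one. -/
lemma winding {v : ℕ → ℂ} {N : ℕ} {d : ℝ} (hper : v N = v 0) (hd0 : 0 ≤ d) (hd : d ≤ Real.pi / 2)
    (hN : N * d = 2 * Real.pi) {z : ℂ} (hz : ∀ j t, 0 < (conj (nrm d j) * (edge v j t - z)).re) :
    ∑ j ∈ Finset.range N, ∫ t in (0 : ℝ)..1, (v (j + 1) - v j) * (edge v j t - z)⁻¹ =
      2 * Real.pi * I := by
  set g : ℕ → ℂ := fun j => Complex.log (conj (nrm d j) * (v j - z)) + (j * d : ℝ) * I with hg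
  have hne : ∀ j t, edge v j t - z ≠ 0 := by
    intro j t h0
    have := hz j t
    rw [h0] at this
    simp at this
  have : ∀ j, ∫ t in (0 : ℝ)..1, (v (j + 1) - v j) * (edge v j t - z)⁻¹ = g (j + 1) - g j := by
    intro j
    have hn0 : conj (nrm d j) ≠ 0 := left_ne_zero_of_mul_eq_one (conj_nrm_mul d j)
    have hd' : ∀ t ∈ Set.uIcc (0 : ℝ) 1,
        HasDerivAt (fun t => Complex.log (conj (nrm d j) * (edge v j t - z)))
        ((v (j + 1) - v j) * (edge v j t - z)⁻¹) t := by
      intro t _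
      have h := (((hasDerivAt_edge v j t).sub_const z).const_mul (conj (nrm d j))).clog_real
        (Or.inl (hz j t))
      refine h.congr_deriv ?_
      have := hne j t
      field_simp
    rw [intervalIntegral.integral_eq_sub_of_hasDerivAt hd'
      (Continuous.intervalIntegrable (by
        have := hne j
        fun_prop (disch := assumption)) _ _), edge_zero, edge_one]
    have h1 : conj (nrm d j) * (v (j + 1) - z) =
        conj (nrm d (j + 1)) * (v (j + 1) - z) * Complex.exp ((d : ℂ) * I) := by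
      have h2 : conj (Complex.exp ((d : ℂ) * I)) * Complex.exp ((d : ℂ) * I) = 1 := by
        rw [Complex.conj_mul', Complex.norm_exp_ofReal_mul_I]; simp
      rw [nrm_succ, map_mul]
      linear_combination (-(conj (nrm d j) * (v (j + 1) - z))) * h2
    have h3 := hz (j + 1) 0
    rw [edge_zero] at h3
    rw [h1, log_turn hd0 hd h3]
    simp only [hg]
    push_cast
    ring
  simp only [this]
  rw [Finset.sum_range_sub g]
  have h4 : nrm d N = nrm d 0 := by
    rw [nrm, nrm, hN]
    simp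
  simp only [hg, h4, hper, hN]
  push_cast
  ring

omit [CompleteSpace H] in
lemma coer_interp {A : H →L[ℂ] H} {z n s : ℂ} {e : ℝ} (hA : Coer A n s e)
    (hz : Coer (algebraMap ℂ (H →L[ℂ] H) z) n s e) {r : ℝ} (hr : r ∈ Set.Icc (0 : ℝ) 1) :
    Coer (algebraMap ℂ (H →L[ℂ] H) z + (r : ℂ) • (A - algebraMap ℂ (H →L[ℂ] H) z)) n s e := by
  intro w
  have h1 := hA w
  have h2 := hz w
  have e1 : algebraMap ℂ (H →L[ℂ] H) s - (algebraMap ℂ (H →L[ℂ] H) z +
      (r : ℂ) • (A - algebraMap ℂ (H →L[ℂ] H) z)) =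
      (r : ℂ) • (algebraMap ℂ (H →L[ℂ] H) s - A) + ((1 - r : ℝ) : ℂ) •
        (algebraMap ℂ (H →L[ℂ] H) s - algebraMap ℂ (H →L[ℂ] H) z) := by
    push_cast
    module
  rw [e1, add_apply, smul_apply, smul_apply, inner_add_right, inner_smul_right, inner_smul_right,
    mul_add, mul_left_comm, mul_left_comm (conj n), Complex.add_re, Complex.re_ofReal_mul,
    Complex.re_ofReal_mul]
  nlinarith [hr.1, hr.2]

/-- The contour integral of the resolvent is `2 π i`. -/
lemma contour_one {A : H →L[ℂ] H} {v : ℕ → ℂ} {N : ℕ} {d e : ℝ} (hper : v N = v 0) (hd0 : 0 ≤ d)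
    (hd : d ≤ Real.pi / 2) (hN : N * d = 2 * Real.pi) (he : 0 < e) {z : ℂ}
    (hA : ∀ j t, Coer A (nrm d j) (edge v j t) e)
    (hz : ∀ j t, e ≤ (conj (nrm d j) * (edge v j t - z)).re) :
    contour A v N (fun _ => 1) = algebraMap ℂ (H →L[ℂ] H) (2 * Real.pi * I) := by
  have hz' : ∀ j t, Coer (algebraMap ℂ (H →L[ℂ] H) z) (nrm d j) (edge v j t) e := by
    intro j t w
    rw [← map_sub, Algebra.algebraMap_eq_smul_one, smul_apply, one_apply_eq_self,
      inner_smul_right, inner_self_eq_norm_sq_to_K, ← mul_assoc]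
    have : ((‖w‖ : ℂ)) ^ 2 = ((‖w‖ ^ 2 : ℝ) : ℂ) := by push_cast; rfl
    simp only [Complex.coe_algebraMap]
    rw [this, Complex.re_mul_ofReal]
    gcongr
    exact hz j t
  set Z := algebraMap ℂ (H →L[ℂ] H) z with hZ
  have hc := const_of_sq_bound (fun r : ℝ => contour (Z + (r : ℂ) • (A - Z)) v N (fun _ => 1))
    ((∑ j ∈ Finset.range N, ‖v (j + 1) - v j‖) * e⁻¹ ^ 3 * ‖A - Z‖ ^ 2) (by
      intro r hr r' hr'
      have c1 := fun j t => coer_interp (hA j t) (hz' j t) hr
      have c2 := fun j t => coer_interp (hA j t) (hz' j t) hr'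
      have e1 : (Z + (r : ℂ) • (A - Z)) - (Z + (r' : ℂ) • (A - Z)) = ((r - r' : ℝ) : ℂ) • (A - Z) := by
        push_cast; module
      refine (contour_sub_le hper (fun j t => (c1 j t).mem (norm_nrm d j) he)
        (fun j t => (c2 j t).mem (norm_nrm d j) he)
        (fun j t => (c1 j t).norm_le (norm_nrm d j) he)
        (fun j t => (c2 j t).norm_le (norm_nrm d j) he) ?_).trans (le_of_eq ?_)
      · rw [e1]
        have hZc : (A - Z) * Z = Z * (A - Z) := (Algebra.commutes z (A - Z)).symm
        rw [← hZ]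
        simp only [mul_add, add_mul, smul_mul_assoc, mul_smul_comm, hZc, smul_add]
        rw [smul_comm (r : ℂ)]
      · rw [e1, norm_smul, Complex.norm_real, Real.norm_eq_abs, mul_pow, sq_abs]
        ring)
  simp only [Complex.ofReal_one, one_smul, add_sub_cancel, Complex.ofReal_zero, zero_smul,
    add_zero] at hc
  rw [hc, ← winding hper hd0 hd hN (z := z) (fun j t => he.trans_le (hz j t)), map_sum, contour]
  refine Finset.sum_congr rfl fun j _ => ?_
  have hne : ∀ t, edge v j t ≠ z := by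
    intro t h0
    have := hz j t
    rw [h0] at this
    simp at this
    linarith
  simp only [hZ, resolvent_scalar (hne _)]
  simp only [Algebra.algebraMap_eq_smul_one, smul_smul, one_mul]
  rw [intervalIntegral.integral_smul_const]

/-- The Cauchy formula for powers. -/
lemma contour_pow {A : H →L[ℂ] H} {v : ℕ → ℂ} {N : ℕ} (hper : v N = v 0)
    (h : ∀ j t, edge v j t ∈ resolventSet ℂ A) (k : ℕ) :
    contour A v N (fun s => s ^ k) = A ^ k * contour A v N (fun _ => 1) := by
  induction k with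
  | zero => simp
  | succ k ih =>
    rw [pow_succ', mul_assoc, ← ih]
    have h0 := congrArg (algebraMap ℂ (H →L[ℂ] H)) (sum_pow_edge hper k)
    rw [map_zero, map_sum] at h0
    rw [← add_zero (A * _), ← h0, contour, contour, Finset.mul_sum, ← Finset.sum_add_distrib]
    refine Finset.sum_congr rfl fun j _ => ?_
    have c1 := continuous_res_edge (h j)
    have e1 := ((ContinuousLinearMap.mul ℂ (H →L[ℂ] H)) A).intervalIntegral_comp_comm
      (μ := MeasureTheory.volume) (a := 0) (b := 1)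
      (f := fun t => (edge v j t ^ k * (v (j + 1) - v j)) • resolvent A (edge v j t))
      (Continuous.intervalIntegrable (by fun_prop) _ _)
    simp only [ContinuousLinearMap.mul_apply'] at e1
    rw [← e1, Algebra.algebraMap_eq_smul_one, ← intervalIntegral.integral_smul_const,
      ← intervalIntegral.integral_add (Continuous.intervalIntegrable (by fun_prop) _ _)
      (Continuous.intervalIntegrable (by fun_prop) _ _)]
    congr 1
    ext1 t
    have h1 := mul_resolvent (h j t)
    rw [sub_mul, Algebra.algebraMap_eq_smul_one, smul_mul_assoc, one_mul] at h1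
    rw [← h1, mul_smul_comm]
    module

/-- The Cauchy formula for polynomials. -/
lemma contour_poly {A : H →L[ℂ] H} {v : ℕ → ℂ} {N : ℕ} (hper : v N = v 0)
    (h : ∀ j t, edge v j t ∈ resolventSet ℂ A) (p : Polynomial ℂ) :
    contour A v N (fun s => p.eval s) = Polynomial.aeval A p * contour A v N (fun _ => 1) := by
  induction p using Polynomial.induction_on' with
  | add p q hp hq =>
    rw [map_add, add_mul, ← hp, ← hq, contour, contour, contour, ← Finset.sum_add_distrib]
    refine Finset.sum_congr rfl fun j _ => ?_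
    have c1 := continuous_res_edge (h j)
    rw [← intervalIntegral.integral_add (Continuous.intervalIntegrable (by fun_prop) _ _)
      (Continuous.intervalIntegrable (by fun_prop) _ _)]
    simp only [Polynomial.eval_add, add_mul, add_smul]
  | monomial k a =>
    rw [Polynomial.aeval_monomial, mul_assoc, ← contour_pow hper h k,
      Algebra.algebraMap_eq_smul_one, smul_mul_assoc, one_mul, contour, contour, Finset.smul_sum]
    refine Finset.sum_congr rfl fun j _ => ?_
    rw [← intervalIntegral.integral_smul]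
    simp only [Polynomial.eval_monomial, smul_smul, mul_assoc]

end Vale.Agent.P123
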