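import Mathlib

/-!
The Toeplitz-Hausdorff theorem: the numerical range of a bounded operator is convex.
-/

open Complex
open scoped InnerProductSpace ComplexConjugate

namespace Vale.Agent.P123

variable {H : Type*} [NormedAddCommGroup H] [InnerProductSpace ℂ H]

/-- The numerical range. -/
def numRange (A : H →L[ℂ] H) : Set ℂ := {z | ∃ x : H, ‖x‖ = 1 ∧ ⟪x, A x⟫_ℂ = z}

lemma exists_unit_of_ne_zero (B : H →L[ℂ] H) {z : H} (hz : z ≠ 0) (h : ⟪z, B z⟫_ℂ = 0) :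
    ∃ w : H, ‖w‖ = 1 ∧ ⟪w, B w⟫_ℂ = 0 := by
  have hzn : 0 < ‖z‖ := norm_pos_iff.mpr hz
  refine ⟨((‖z‖⁻¹ : ℝ) : ℂ) • z, ?_, ?_⟩
  · rw [norm_smul, Complex.norm_real, Real.norm_eq_abs, abs_of_pos (inv_pos.mpr hzn)]
    field_simp
  · rw [map_smul, inner_smul_left, inner_smul_right, h]; simp

lemma exists_zero_of_signs (B : H →L[ℂ] H) {x y : H} (hx : ‖x‖ = 1) (hy : ‖y‖ = 1) {a b : ℝ}
    (ha : a ≤ 0) (hb : 0 ≤ b) (hxa : ⟪x, B x⟫_ℂ = a) (hyb : ⟪y, B y⟫_ℂ = b) :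
    ∃ w : H, ‖w‖ = 1 ∧ ⟪w, B w⟫_ℂ = 0 := by
  rcases ha.eq_or_lt with rfl | ha'
  · exact ⟨x, hx, by simpa using hxa⟩
  rcases hb.eq_or_lt with rfl | hb'
  · exact ⟨y, hy, by simpa using hyb⟩
  obtain ⟨l, hl1, hl2⟩ : ∃ l : ℂ, ‖l‖ = 1 ∧ (l * ⟪x, B y⟫_ℂ + conj l * ⟪y, B x⟫_ℂ).im = 0 := by
    set c : ℂ := ⟪x, B y⟫_ℂ - conj ⟪y, B x⟫_ℂ with hc
    obtain ⟨l, hl1, hl2⟩ : ∃ l : ℂ, ‖l‖ = 1 ∧ (l * c).im = 0 := by
      by_cases h0 : c = 0
      · exact ⟨1, by simp, by simp [h0]⟩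
      · have hcn : (‖c‖ : ℂ) ≠ 0 := by simpa using h0
        refine ⟨conj c / ‖c‖, ?_, ?_⟩
        · rw [norm_div, Complex.norm_conj, Complex.norm_real, norm_norm]
          exact div_self (norm_ne_zero_iff.mpr h0)
        · have : conj c / ‖c‖ * c = ((‖c‖ : ℝ) : ℂ) := by
            rw [div_mul_eq_mul_div, Complex.conj_mul', div_eq_iff hcn]; ring
          rw [this]; simp
    refine ⟨l, hl1, ?_⟩
    rw [← hl2, hc]
    generalize ⟪x, B y⟫_ℂ = p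
    generalize ⟪y, B x⟫_ℂ = q
    simp [mul_sub]
    ring
  set r : ℝ := (l * ⟪x, B y⟫_ℂ + conj l * ⟪y, B x⟫_ℂ).re with hr
  have hr' : l * ⟪x, B y⟫_ℂ + conj l * ⟪y, B x⟫_ℂ = r := by
    apply Complex.ext <;> simp [hr, hl2]
  have hll : conj l * l = 1 := by
    rw [Complex.conj_mul', hl1]; simp
  have hform : ∀ s : ℝ, ⟪((1 - s : ℝ) : ℂ) • x + ((s : ℂ) * l) • y,
      B (((1 - s : ℝ) : ℂ) • x + ((s : ℂ) * l) • y)⟫_ℂ =
      (((1 - s) ^ 2 * a + s * (1 - s) * r + s ^ 2 * b : ℝ) : ℂ) := by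
    intro s
    simp only [map_add, map_smul, inner_add_left, inner_add_right, inner_smul_left,
      inner_smul_right, map_mul, Complex.conj_ofReal, hxa, hyb]
    push_cast
    rw [← hr']
    linear_combination (s : ℂ) ^ 2 * b * hll
  have hcont : ContinuousOn (fun s : ℝ => (1 - s) ^ 2 * a + s * (1 - s) * r + s ^ 2 * b)
      (Set.Icc 0 1) := by fun_prop
  obtain ⟨s, hs, hs0⟩ := intermediate_value_Icc (zero_le_one' ℝ) hcont
    (show (0 : ℝ) ∈ Set.Icc _ _ from ⟨by simpa using ha, by simpa using hb⟩)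
  refine exists_unit_of_ne_zero B (z := ((1 - s : ℝ) : ℂ) • x + ((s : ℂ) * l) • y) ?_ ?_
  · intro h0
    have h1 : ((1 - s : ℝ) : ℂ) • x = -(((s : ℂ) * l) • y) := eq_neg_of_add_eq_zero_left h0
    have h2 : ⟪((1 - s : ℝ) : ℂ) • x, B (((1 - s : ℝ) : ℂ) • x)⟫_ℂ =
        ⟪((s : ℂ) * l) • y, B (((s : ℂ) * l) • y)⟫_ℂ := by
      rw [h1, map_neg, inner_neg_neg]
    simp only [map_smul, inner_smul_left, inner_smul_right, map_mul, Complex.conj_ofReal,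
      hxa, hyb] at h2
    have h3 : (((1 - s) ^ 2 * a : ℝ) : ℂ) = ((s ^ 2 * b : ℝ) : ℂ) := by
      push_cast at h2 ⊢
      linear_combination h2 + (s : ℂ) ^ 2 * b * hll
    have h4 : (1 - s) ^ 2 * a = s ^ 2 * b := by exact_mod_cast h3
    have h5 : (1 - s) ^ 2 * a ≤ 0 := mul_nonpos_of_nonneg_of_nonpos (sq_nonneg _) ha
    have h6 : 0 ≤ s ^ 2 * b := by positivity
    have h7 : s ^ 2 * b = 0 := by linarith
    have h8 : (1 - s) ^ 2 * a = 0 := by linarith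
    have h9 : s = 0 := by simpa [hb'.ne'] using h7
    rw [h9] at h8
    simp at h8
    linarith
  · rw [hform]
    simp only at hs0
    rw [hs0]; simp

theorem convex_numRange (A : H →L[ℂ] H) : Convex ℝ (numRange A) := by
  rintro a ⟨x, hx, rfl⟩ b ⟨y, hy, rfl⟩ s t hs ht hst
  set a := ⟪x, A x⟫_ℂ with ha
  set b := ⟪y, A y⟫_ℂ with hb
  by_cases hab : a = b
  · refine ⟨x, hx, ?_⟩
    rw [← ha, ← hab, ← add_smul, hst, one_smul]
  have hab' : b - a ≠ 0 := sub_ne_zero.mpr (Ne.symm hab)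
  set c : ℂ := s • a + t • b with hc
  have hs' : (s : ℂ) = 1 - t := by
    have : s = 1 - t := by linarith
    rw [this]; push_cast; ring
  have hB : ∀ w : H, ‖w‖ = 1 → ⟪w, ((b - a)⁻¹ • (A - c • (1 : H →L[ℂ] H))) w⟫_ℂ =
      (b - a)⁻¹ * (⟪w, A w⟫_ℂ - c) := by
    intro w hw
    simp [inner_self_eq_norm_sq_to_K, hw]
  obtain ⟨w, hw1, hw2⟩ := exists_zero_of_signs ((b - a)⁻¹ • (A - c • (1 : H →L[ℂ] H))) hx hy
    (a := -t) (b := s) (by linarith) hs (by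
      rw [hB x hx, ← ha, hc]
      simp only [Complex.real_smul, hs']
      push_cast
      field_simp
      ring) (by
      rw [hB y hy, ← hb, hc]
      simp only [Complex.real_smul, hs']
      field_simp
      ring)
  refine ⟨w, hw1, ?_⟩
  rw [hB w hw1] at hw2
  have := (mul_eq_zero.mp hw2).resolve_left (inv_ne_zero hab')
  exact sub_eq_zero.mp this

lemma norm_le_of_mem_numRange (A : H →L[ℂ] H) {z : ℂ} (hz : z ∈ numRange A) : ‖z‖ ≤ ‖A‖ := by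
  obtain ⟨x, hx, rfl⟩ := hz
  calc ‖⟪x, A x⟫_ℂ‖ ≤ ‖x‖ * ‖A x‖ := norm_inner_le_norm _ _
    _ ≤ ‖x‖ * (‖A‖ * ‖x‖) := by gcongr; exact A.le_opNorm x
    _ = ‖A‖ := by rw [hx]; ring

end Vale.Agent.P123
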