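import Vale.Agent.P123.Core
import Vale.Agent.P123.TH
import Vale.Agent.P123.Polygon

/-!
The bound with constant two on the boundary of a convex polygon around the numerical range.
-/

open Complex MeasureTheory
open scoped InnerProductSpace ComplexConjugate

namespace Vale.Agent.P123

/-- Arc parameter measure on the `N` edges. -/
noncomputable def edgeMeasure (N : ℕ) : Measure (ℕ × ℝ) :=
  ∑ j ∈ Finset.range N, (volume.restrict (Set.Ioc (0 : ℝ) 1)).map (Prod.mk j)

lemma integrable_edgeMeasure {E : Type*} [NormedAddCommGroup E] {F : ℕ × ℝ → E}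
    (hF : ∀ j, Continuous fun t => F (j, t)) (j : ℕ) :
    Integrable F ((volume.restrict (Set.Ioc (0 : ℝ) 1)).map (Prod.mk j)) := by
  rw [(measurableEmbedding_prodMk_left j).integrable_map_iff]
  exact ((hF j).integrableOn_Icc (a := 0) (b := 1)).mono_set Set.Ioc_subset_Icc_self

lemma integrable_edge {E : Type*} [NormedAddCommGroup E] {N : ℕ} {F : ℕ × ℝ → E}
    (hF : ∀ j, Continuous fun t => F (j, t)) : Integrable F (edgeMeasure N) :=
  integrable_finsetSum_measure.mpr fun j _ => integrable_edgeMeasure hF j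

lemma integral_edge {E : Type*} [NormedAddCommGroup E] [NormedSpace ℝ E] {N : ℕ}
    {F : ℕ × ℝ → E} (hF : ∀ j, Continuous fun t => F (j, t)) :
    ∫ ω, F ω ∂(edgeMeasure N) = ∑ j ∈ Finset.range N, ∫ t in (0 : ℝ)..1, F (j, t) := by
  rw [edgeMeasure, integral_finsetSum_measure fun j _ => integrable_edgeMeasure hF j]
  refine Finset.sum_congr rfl fun j _ => ?_
  rw [(measurableEmbedding_prodMk_left j).integral_map, intervalIntegral.integral_of_le zero_le_one]

lemma ae_edge {N : ℕ} {p : ℕ × ℝ → Prop} (hp : ∀ j, ∀ t ∈ Set.Ioc (0 : ℝ) 1, p (j, t)) :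
    ∀ᵐ ω ∂(edgeMeasure N), p ω := by
  rw [edgeMeasure, ae_finsetSum_measure_iff]
  intro j _
  rw [(measurableEmbedding_prodMk_left j).ae_map_iff]
  exact (ae_restrict_iff' measurableSet_Ioc).mpr (Filter.Eventually.of_forall (hp j))

variable {H : Type*} [NormedAddCommGroup H] [InnerProductSpace ℂ H] [CompleteSpace H]

omit [CompleteSpace H] in
lemma coer_of_numRange {A : H →L[ℂ] H} {n s : ℂ} {e : ℝ}
    (h : ∀ z ∈ numRange A, e ≤ (conj n * (s - z)).re) : Coer A n s e := by
  intro w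
  by_cases hw : w = 0
  · simp [hw]
  have hwn : 0 < ‖w‖ := norm_pos_iff.mpr hw
  set x : H := ((‖w‖⁻¹ : ℝ) : ℂ) • w with hx
  have hx1 : ‖x‖ = 1 := by
    rw [hx, norm_smul, Complex.norm_real, Real.norm_eq_abs, abs_of_pos (inv_pos.mpr hwn)]
    field_simp
  have hwx : w = ((‖w‖ : ℝ) : ℂ) • x := by
    rw [hx, smul_smul, ← Complex.ofReal_mul, mul_inv_cancel₀ hwn.ne']; simp
  have h1 := h _ ⟨x, hx1, rfl⟩
  have h2 : ⟪w, (algebraMap ℂ (H →L[ℂ] H) s - A) w⟫_ℂ =
      ((‖w‖ ^ 2 : ℝ) : ℂ) * (s - ⟪x, A x⟫_ℂ) := by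
    conv_lhs => rw [hwx]
    rw [map_smul, inner_smul_left, inner_smul_right, Complex.conj_ofReal, sub_apply,
      Algebra.algebraMap_eq_smul_one, smul_apply, one_apply_eq_self, inner_sub_right,
      inner_smul_right, inner_self_eq_norm_sq_to_K, hx1]
    simp only [Complex.coe_algebraMap]
    push_cast
    ring
  rw [h2, mul_left_comm, Complex.re_ofReal_mul, mul_comm e]
  gcongr

theorem polygon_bound {A : H →L[ℂ] H} {v : ℕ → ℂ} {l : ℕ → ℝ} {N : ℕ} {d e : ℝ}
    (hper : v N = v 0) (hd0 : 0 ≤ d) (hd : d ≤ Real.pi / 2) (hN : N * d = 2 * Real.pi)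
    (he : 0 < e) (hl : ∀ j, 0 ≤ l j) (hv : ∀ j, v (j + 1) - v j = I * nrm d j * l j)
    (hsep : ∀ j, ∀ z ∈ numRange A, e ≤ (conj (nrm d j) * (v j - z)).re)
    (hne : (numRange A).Nonempty) (P : Polynomial ℂ)
    (hP : ∀ j, ∀ t ∈ Set.Ioc (0 : ℝ) 1, ‖P.eval (edge v j t)‖ ≤ 1) :
    ‖Polynomial.aeval A P‖ ≤ 2 := by
  have hsep' : ∀ j t, ∀ z ∈ numRange A, e ≤ (conj (nrm d j) * (edge v j t - z)).re := by
    intro j t z hz
    have e1 : conj (nrm d j) * (edge v j t - z) =
        conj (nrm d j) * (v j - z) + ((t * l j : ℝ) : ℂ) * I := by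
      rw [edge, hv j]
      push_cast
      linear_combination ((t : ℂ) * l j * I) * conj_nrm_mul d j
    rw [e1, Complex.add_re]
    simpa using hsep j z hz
  have hco : ∀ j t, Coer A (nrm d j) (edge v j t) e := fun j t => coer_of_numRange (hsep' j t)
  have hmem : ∀ j t, edge v j t ∈ resolventSet ℂ A := fun j t => (hco j t).mem (norm_nrm d j) he
  obtain ⟨z, hz⟩ := hne
  have h1 := contour_one hper hd0 hd hN he hco (fun j t => hsep' j t z hz)
  have hpi : (2 * Real.pi * I : ℂ) ≠ 0 := Complex.two_pi_I_ne_zero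
  set R : ℕ × ℝ → H →L[ℂ] H := fun ω =>
    ((2 * Real.pi * I : ℂ)⁻¹ * (v (ω.1 + 1) - v ω.1)) • resolvent A (edge v ω.1 ω.2) with hR
  have hRc : ∀ j, Continuous fun t => R (j, t) := by
    intro j
    have := continuous_res_edge (hmem j)
    simp only [hR]
    fun_prop
  have hfc : ∀ j, Continuous fun t => P.eval (edge v j t) := fun j => by fun_prop
  refine core (μ := edgeMeasure N) (R := R) (f := fun ω => P.eval (edge v ω.1 ω.2))
    (integrable_edge hRc) ?_ (integrable_edge (F := fun ω => P.eval (edge v ω.1 ω.2))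
      hfc).aestronglyMeasurable (ae_edge hP) _ ?_ ?_
  · rintro ⟨j, t⟩ u
    have e1 : (2 * Real.pi * I : ℂ)⁻¹ * (v (j + 1) - v j) =
        ((l j / (2 * Real.pi) : ℝ) : ℂ) * nrm d j := by
      have : (Real.pi : ℂ) ≠ 0 := by exact_mod_cast Real.pi_ne_zero
      rw [hv j]
      push_cast
      field_simp
    simp only [hR]
    rw [e1, smul_apply, inner_smul_right, mul_assoc, Complex.re_ofReal_mul]
    have := (hco j t).pos (norm_nrm d j) he u
    have h2 := hl j
    have h3 := Real.pi_pos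
    positivity
  · rintro ⟨j, t⟩
    simp only [hR]
    rw [mul_smul_comm, smul_mul_assoc, commute_resolvent (hmem j t)]
    have := Polynomial.aeval_mul (x := A) (p := P) (q := Polynomial.X)
    have h2 := Polynomial.aeval_mul (x := A) (p := Polynomial.X) (q := P)
    rw [mul_comm, this] at h2
    simpa using h2
  · intro n
    rw [integral_edge (F := fun ω => P.eval (edge v ω.1 ω.2) ^ n • R ω) 
      (fun j => ((hfc j).pow n).smul (hRc j))]
    have h2 := contour_poly hper hmem (P ^ n)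
    rw [h1, map_pow, Algebra.algebraMap_eq_smul_one, mul_smul_comm, mul_one] at h2
    have h3 : (2 * Real.pi * I : ℂ)⁻¹ • contour A v N (fun s => (P ^ n).eval s) =
        Polynomial.aeval A P ^ n := by
      rw [h2, smul_smul, inv_mul_cancel₀ hpi, one_smul]
    rw [← h3, contour, Finset.smul_sum]
    refine Finset.sum_congr rfl fun j _ => ?_
    rw [← intervalIntegral.integral_smul]
    congr 1
    ext1 t
    simp only [hR, smul_smul, Polynomial.eval_pow]
    congr 1
    ring

end Vale.Agent.P123
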