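import Mathlib

/-!
The perturbation step: an operator whose powers are the moments of a contraction valued symbol
against an accretive operator kernel commuting with it has norm at most two.
-/

open MeasureTheory Complex
open scoped InnerProductSpace ComplexConjugate

namespace Vale.Agent.P123

variable {H : Type*} [NormedAddCommGroup H] [InnerProductSpace ℂ H] [CompleteSpace H]

/-- A real sequence bounded below with `b (n+1) ≤ k * b n` and `k > 1` starts nonnegative. -/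
lemma seq_nonneg (b : ℕ → ℝ) (k C : ℝ) (hk : 1 < k) (hb : ∀ n, b (n + 1) ≤ k * b n)
    (hC : ∀ n, -C ≤ b n) : 0 ≤ b 0 := by
  by_contra h
  push Not at h
  have h1 : ∀ n, b n ≤ k ^ n * b 0 := by
    intro n
    induction n with
    | zero => simp
    | succ n ih =>
      calc b (n + 1) ≤ k * b n := hb n
        _ ≤ k * (k ^ n * b 0) := by gcongr
        _ = k ^ (n + 1) * b 0 := by ring
  obtain ⟨n, hn⟩ := pow_unbounded_of_one_lt (C / (-b 0)) hk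
  have h2 := (hC n).trans (h1 n)
  rw [div_lt_iff₀ (by linarith)] at hn
  linarith

/-- The real variable part of the argument. -/
lemma real_step (k c e C D y : ℝ) (m : ℕ → ℝ) (hk : 2 < k) (hc : c = k - 1) (he : 0 < e)
    (hC0 : 0 ≤ C) (hy : k ^ 2 - e ^ 2 ≤ y) (hD : D = y - k * (y + m 1) + k ^ 2) (hD0 : 0 ≤ D)
    (hmb : ∀ n, -C ^ 2 ≤ m n)
    (hrec : ∀ n : ℕ, 0 ≤ c * (k ^ 2 * m n + k * e * C ^ 2 - k * m (n + 1)) + D) :
    0 ≤ k ^ 2 * (2 - k) + c * e ^ 2 + C ^ 2 * k * e := by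
  have hc1 : 1 < c := by linarith
  have hk0 : 0 < k := by linarith
  have hc0 : 0 < c := by linarith
  obtain ⟨L, hL⟩ : ∃ L : ℝ, L = (D + c * (k * e * C ^ 2)) / (c ^ 2 * k) := ⟨_, rfl⟩
  have hL0 : 0 ≤ L := by rw [hL]; positivity
  have hLe : c ^ 2 * k * L = D + c * (k * e * C ^ 2) := by rw [hL]; field_simp
  have hb := seq_nonneg (fun n => m (n + 1) + L) k (C ^ 2) (by linarith) (by
    intro n
    have h := hrec (n + 1)
    have : 0 ≤ (c * k) * (k * (m (n + 1) + L) - (m (n + 1 + 1) + L)) := by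
      have e1 : (c * k) * (k * (m (n + 1) + L) - (m (n + 1 + 1) + L)) =
          c * (k ^ 2 * m (n + 1) - k * m (n + 1 + 1)) + c ^ 2 * k * L := by rw [hc]; ring
      rw [e1, hLe]; linarith
    have := nonneg_of_mul_nonneg_right this (by positivity : 0 < c * k)
    linarith) (fun n => by linarith [hmb (n + 1)])
  simp only [zero_add] at hb
  have hkL : k * L ≤ D + k * e * C ^ 2 := by
    have h1 : c ^ 2 * (k * L) ≤ c ^ 2 * (D + k * e * C ^ 2) := by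
      have e1 : c ^ 2 * (k * L) = D + c * (k * e * C ^ 2) := by rw [← hLe]; ring
      rw [e1]
      have h2 : 1 ≤ c ^ 2 := by nlinarith
      have h3 : c ≤ c ^ 2 := by nlinarith
      have h4 : 0 ≤ k * e * C ^ 2 := by positivity
      nlinarith
    exact le_of_mul_le_mul_left h1 (by positivity)
  have h5 : -(k * m 1) ≤ k * L := by nlinarith
  have h6 : (1 - k) * y ≤ (1 - k) * (k ^ 2 - e ^ 2) := by nlinarith
  have h7 : D = (1 - k) * y + k ^ 2 - k * m 1 := by rw [hD]; ring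
  have h8 : k ^ 2 * (2 - k) + c * e ^ 2 = (1 - k) * (k ^ 2 - e ^ 2) + k ^ 2 := by rw [hc]; ring
  linarith

/-- Almost extremal vectors. -/
lemma exists_almost_extremal (T : H →L[ℂ] H) (hT : 0 < ‖T‖) {e : ℝ} (he : 0 < e) :
    ∃ x : H, ‖x‖ = 1 ∧ ‖T‖ ^ 2 - e ^ 2 ≤ ‖T x‖ ^ 2 ∧
      ‖(ContinuousLinearMap.adjoint T) (T x) - ((‖T‖ ^ 2 : ℝ) : ℂ) • x‖ ≤ ‖T‖ * e := by
  obtain ⟨r, hr0, hr1, hr2⟩ : ∃ r : ℝ, 0 ≤ r ∧ r < ‖T‖ ∧ ‖T‖ ^ 2 - e ^ 2 ≤ r ^ 2 := by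
    refine ⟨Real.sqrt (max 0 (‖T‖ ^ 2 - e ^ 2)), Real.sqrt_nonneg _, ?_, ?_⟩
    · rw [Real.sqrt_lt' hT]
      exact max_lt (by positivity) (by nlinarith)
    · rw [Real.sq_sqrt (le_max_left _ _)]
      exact le_max_right _ _
  obtain ⟨y, hy1, hy2⟩ := T.exists_lt_apply_of_lt_opNorm hr1
  have hy0 : y ≠ 0 := by
    rintro rfl
    simp at hy2
    linarith
  have hyn : 0 < ‖y‖ := norm_pos_iff.mpr hy0
  set x : H := ((‖y‖⁻¹ : ℝ) : ℂ) • y with hx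
  have hx1 : ‖x‖ = 1 := by
    rw [hx, norm_smul, Complex.norm_real, Real.norm_eq_abs, abs_of_pos (inv_pos.mpr hyn)]
    field_simp
  have hTx : r ≤ ‖T x‖ := by
    rw [hx, map_smul, norm_smul, Complex.norm_real, Real.norm_eq_abs,
      abs_of_pos (inv_pos.mpr hyn)]
    have : 1 ≤ ‖y‖⁻¹ := (one_le_inv₀ hyn).mpr hy1.le
    nlinarith [norm_nonneg (T y)]
  have hTx2 : ‖T‖ ^ 2 - e ^ 2 ≤ ‖T x‖ ^ 2 := hr2.trans (by gcongr)
  refine ⟨x, hx1, hTx2, ?_⟩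
  have h1 : ‖(ContinuousLinearMap.adjoint T) (T x)‖ ≤ ‖T‖ * ‖T x‖ := by
    have := (ContinuousLinearMap.adjoint T).le_opNorm (T x)
    simpa using this
  have h2 : ‖(ContinuousLinearMap.adjoint T) (T x) - ((‖T‖ ^ 2 : ℝ) : ℂ) • x‖ ^ 2 =
      ‖(ContinuousLinearMap.adjoint T) (T x)‖ ^ 2 - 2 * (‖T‖ ^ 2 * ‖T x‖ ^ 2) + ‖T‖ ^ 4 := by
    rw [@norm_sub_sq ℂ, inner_smul_right, ContinuousLinearMap.adjoint_inner_left,
      inner_self_eq_norm_sq_to_K, norm_smul, hx1]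
    simp only [Complex.norm_real, Real.norm_eq_abs, abs_pow, abs_norm, mul_one]
    have : RCLike.re ((((‖T‖ ^ 2 : ℝ) : ℂ)) * ((‖T x‖ : ℝ) : ℂ) ^ 2) = ‖T‖ ^ 2 * ‖T x‖ ^ 2 := by
      have : (((‖T‖ ^ 2 : ℝ) : ℂ)) * ((‖T x‖ : ℝ) : ℂ) ^ 2 = ((‖T‖ ^ 2 * ‖T x‖ ^ 2 : ℝ) : ℂ) := by
        push_cast; ring
      rw [this]; exact Complex.ofReal_re _
    simp only [Complex.coe_algebraMap] at this ⊢
    rw [this]; ring
  have h3 : ‖(ContinuousLinearMap.adjoint T) (T x)‖ ^ 2 ≤ (‖T‖ * ‖T x‖) ^ 2 := by gcongr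
  apply le_of_sq_le_sq _ (by positivity)
  · rw [h2]
    nlinarith [sq_nonneg ‖T‖]

omit [CompleteSpace H] in
/-- The pointwise positivity inequality. -/
lemma pointwise (A : H →L[ℂ] H) (hA : ∀ u, 0 ≤ (⟪u, A u⟫_ℂ).re) (p a : ℂ) (hp : ‖p‖ ≤ 1)
    (ha : ‖a‖ ≤ 1) (z y x : H) (c k : ℝ) :
    0 ≤ c ^ 2 * (⟪z, A z⟫_ℂ).re + c * ((p * ⟪z, A y⟫_ℂ).re - k * (p * a * ⟪z, A x⟫_ℂ).re
      + (conj p * ⟪y, A z⟫_ℂ).re - k * (conj p * conj a * ⟪x, A z⟫_ℂ).re)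
      + ((⟪y, A y⟫_ℂ).re - k * ((a * ⟪y, A x⟫_ℂ).re + (conj a * ⟪x, A y⟫_ℂ).re)
        + k ^ 2 * (⟪x, A x⟫_ℂ).re) := by
  have h := hA (((c : ℂ) * conj p) • z + y - ((k : ℂ) * a) • x)
  have e : ⟪((c : ℂ) * conj p) • z + y - ((k : ℂ) * a) • x,
      A (((c : ℂ) * conj p) • z + y - ((k : ℂ) * a) • x)⟫_ℂ =
      ((c ^ 2 * normSq p : ℝ) : ℂ) * ⟪z, A z⟫_ℂ + (c : ℂ) * ((p * ⟪z, A y⟫_ℂ)
        - (k : ℂ) * (p * a * ⟪z, A x⟫_ℂ) + (conj p * ⟪y, A z⟫_ℂ)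
        - (k : ℂ) * (conj p * conj a * ⟪x, A z⟫_ℂ))
      + (⟪y, A y⟫_ℂ - (k : ℂ) * ((a * ⟪y, A x⟫_ℂ) + (conj a * ⟪x, A y⟫_ℂ))
        + ((k ^ 2 * normSq a : ℝ) : ℂ) * ⟪x, A x⟫_ℂ) := by
    simp only [map_add, map_sub, map_smul, inner_add_left, inner_sub_left, inner_add_right,
      inner_sub_right, inner_smul_left, inner_smul_right, map_mul, Complex.conj_ofReal,
      Complex.conj_conj]
    push_cast
    rw [Complex.normSq_eq_conj_mul_self, Complex.normSq_eq_conj_mul_self]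
    ring
  rw [e] at h
  simp only [Complex.add_re, Complex.sub_re, Complex.re_ofReal_mul] at h
  have hp' : normSq p ≤ 1 := by
    rw [Complex.normSq_eq_norm_sq]; exact pow_le_one₀ (norm_nonneg _) hp
  have ha' : normSq a ≤ 1 := by
    rw [Complex.normSq_eq_norm_sq]; exact pow_le_one₀ (norm_nonneg _) ha
  have h1 : c ^ 2 * normSq p * (⟪z, A z⟫_ℂ).re ≤ c ^ 2 * (⟪z, A z⟫_ℂ).re := by
    have := hA z
    have h0 : c ^ 2 * normSq p ≤ c ^ 2 := by nlinarith [sq_nonneg c]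
    gcongr
  have h2 : k ^ 2 * normSq a * (⟪x, A x⟫_ℂ).re ≤ k ^ 2 * (⟪x, A x⟫_ℂ).re := by
    have := hA x
    have h0 : k ^ 2 * normSq a ≤ k ^ 2 := by nlinarith [sq_nonneg k]
    gcongr
  linarith

section

variable {Ω : Type*} [MeasurableSpace Ω] {μ : Measure Ω} {R : Ω → H →L[ℂ] H}

omit [CompleteSpace H] in
lemma integrable_smul_kernel (hR : Integrable R μ) {g : Ω → ℂ} (hg : AEStronglyMeasurable g μ)
    (hg1 : ∀ᵐ ω ∂μ, ‖g ω‖ ≤ 1) : Integrable (fun ω => g ω • R ω) μ := by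
  refine Integrable.mono hR (hg.smul hR.aestronglyMeasurable) ?_
  filter_upwards [hg1] with ω h
  rw [norm_smul]
  exact mul_le_of_le_one_left (norm_nonneg _) h

omit [CompleteSpace H] in
lemma norm_integral_smul_kernel (hR : Integrable R μ) {g : Ω → ℂ}
    (hg1 : ∀ᵐ ω ∂μ, ‖g ω‖ ≤ 1) : ‖∫ ω, g ω • R ω ∂μ‖ ≤ ∫ ω, ‖R ω‖ ∂μ := by
  refine norm_integral_le_of_norm_le hR.norm ?_
  filter_upwards [hg1] with ω h
  rw [norm_smul]
  exact mul_le_of_le_one_left (norm_nonneg _) h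

/-- The real linear functional `A ↦ re ⟪u, A v⟫`. -/
noncomputable def reForm (u v : H) : (H →L[ℂ] H) →L[ℝ] ℝ :=
  Complex.reCLM.comp (((innerSL ℂ u).comp (ContinuousLinearMap.apply ℂ H v)).restrictScalars ℝ)

omit [CompleteSpace H] in
lemma reForm_apply (u v : H) (A : H →L[ℂ] H) : reForm u v A = (⟪u, A v⟫_ℂ).re := rfl

omit [CompleteSpace H] in
lemma integrable_re (hR : Integrable R μ) {g : Ω → ℂ} (hg : AEStronglyMeasurable g μ)
    (hg1 : ∀ᵐ ω ∂μ, ‖g ω‖ ≤ 1) (u v : H) :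
    Integrable (fun ω => (g ω * ⟪u, R ω v⟫_ℂ).re) μ := by
  have := (reForm u v).integrable_comp (integrable_smul_kernel hR hg hg1)
  simpa [reForm_apply, inner_smul_right] using this

lemma integral_re_eq (hR : Integrable R μ) {g : Ω → ℂ} (hg : AEStronglyMeasurable g μ)
    (hg1 : ∀ᵐ ω ∂μ, ‖g ω‖ ≤ 1) (u v : H) :
    ∫ ω, (g ω * ⟪u, R ω v⟫_ℂ).re ∂μ = (⟪u, (∫ ω, g ω • R ω ∂μ) v⟫_ℂ).re := by
  have := (reForm u v).integral_comp_comm (integrable_smul_kernel hR hg hg1)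
  simpa only [reForm_apply, smul_apply, inner_smul_right] using this

/-- The integrated inequality. -/
lemma integrated (hR : Integrable R μ) (hpos : ∀ ω u, 0 ≤ (⟪u, R ω u⟫_ℂ).re)
    {p a : Ω → ℂ} (hp : AEStronglyMeasurable p μ) (ha : AEStronglyMeasurable a μ)
    (hp1 : ∀ᵐ ω ∂μ, ‖p ω‖ ≤ 1) (ha1 : ∀ᵐ ω ∂μ, ‖a ω‖ ≤ 1) (z y x : H) (c k : ℝ) :
    0 ≤ c ^ 2 * (⟪z, (∫ ω, (1 : ℂ) • R ω ∂μ) z⟫_ℂ).re
      + c * ((⟪z, (∫ ω, p ω • R ω ∂μ) y⟫_ℂ).re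
        - k * (⟪z, (∫ ω, (p ω * a ω) • R ω ∂μ) x⟫_ℂ).re
        + (⟪y, (∫ ω, conj (p ω) • R ω ∂μ) z⟫_ℂ).re
        - k * (⟪x, (∫ ω, (conj (p ω) * conj (a ω)) • R ω ∂μ) z⟫_ℂ).re)
      + ((⟪y, (∫ ω, (1 : ℂ) • R ω ∂μ) y⟫_ℂ).re
        - k * ((⟪y, (∫ ω, a ω • R ω ∂μ) x⟫_ℂ).re + (⟪x, (∫ ω, conj (a ω) • R ω ∂μ) y⟫_ℂ).re)
        + k ^ 2 * (⟪x, (∫ ω, (1 : ℂ) • R ω ∂μ) x⟫_ℂ).re) := by
  have m1 : AEStronglyMeasurable (fun _ : Ω => (1 : ℂ)) μ := aestronglyMeasurable_const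
  have b1 : ∀ᵐ ω ∂μ, ‖(fun _ : Ω => (1 : ℂ)) ω‖ ≤ 1 := by simp
  have mpa : AEStronglyMeasurable (fun ω => p ω * a ω) μ := hp.mul ha
  have bpa : ∀ᵐ ω ∂μ, ‖p ω * a ω‖ ≤ 1 := by
    filter_upwards [hp1, ha1] with ω h1 h2
    rw [norm_mul]; exact mul_le_one₀ h1 (norm_nonneg _) h2
  have mcp : AEStronglyMeasurable (fun ω => conj (p ω)) μ :=
    Complex.continuous_conj.comp_aestronglyMeasurable hp
  have mca : AEStronglyMeasurable (fun ω => conj (a ω)) μ :=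
    Complex.continuous_conj.comp_aestronglyMeasurable ha
  have bcp : ∀ᵐ ω ∂μ, ‖conj (p ω)‖ ≤ 1 := by simpa using hp1
  have bca : ∀ᵐ ω ∂μ, ‖conj (a ω)‖ ≤ 1 := by simpa using ha1
  have mcpa : AEStronglyMeasurable (fun ω => conj (p ω) * conj (a ω)) μ := mcp.mul mca
  have bcpa : ∀ᵐ ω ∂μ, ‖conj (p ω) * conj (a ω)‖ ≤ 1 := by simpa using bpa
  have i1 := integrable_re hR m1 b1 z z
  have i2 := integrable_re hR hp hp1 z y
  have i3 := integrable_re hR mpa bpa z x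
  have i4 := integrable_re hR mcp bcp y z
  have i5 := integrable_re hR mcpa bcpa x z
  have i6 := integrable_re hR m1 b1 y y
  have i7 := integrable_re hR ha ha1 y x
  have i8 := integrable_re hR mca bca x y
  have i9 := integrable_re hR m1 b1 x x
  rw [← integral_re_eq hR m1 b1, ← integral_re_eq hR m1 b1, ← integral_re_eq hR m1 b1,
    ← integral_re_eq hR hp hp1, ← integral_re_eq hR mpa bpa, ← integral_re_eq hR mcp bcp,
    ← integral_re_eq hR mcpa bcpa, ← integral_re_eq hR ha ha1, ← integral_re_eq hR mca bca]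
  have key : 0 ≤ ∫ ω, (c ^ 2 * (1 * ⟪z, R ω z⟫_ℂ).re + c * ((p ω * ⟪z, R ω y⟫_ℂ).re
      - k * (p ω * a ω * ⟪z, R ω x⟫_ℂ).re
      + (conj (p ω) * ⟪y, R ω z⟫_ℂ).re - k * (conj (p ω) * conj (a ω) * ⟪x, R ω z⟫_ℂ).re)
      + ((1 * ⟪y, R ω y⟫_ℂ).re - k * ((a ω * ⟪y, R ω x⟫_ℂ).re + (conj (a ω) * ⟪x, R ω y⟫_ℂ).re)
        + k ^ 2 * (1 * ⟪x, R ω x⟫_ℂ).re)) ∂μ := by
    apply integral_nonneg_of_ae
    filter_upwards [hp1, ha1] with ω h1 h2
    simpa only [one_mul, Pi.zero_apply] using pointwise (R ω) (hpos ω) (p ω) (a ω) h1 h2 z y x c k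
  rw [integral_add, integral_add, integral_add, integral_sub, integral_const_mul,
    integral_const_mul, integral_const_mul, integral_const_mul, integral_sub, integral_add,
    integral_add, integral_sub, integral_const_mul, integral_const_mul] at key
  · exact key
  all_goals fun_prop

/-- The perturbation lemma. -/
theorem core (hR : Integrable R μ) (hpos : ∀ ω u, 0 ≤ (⟪u, R ω u⟫_ℂ).re)
    {f : Ω → ℂ} (hf : AEStronglyMeasurable f μ) (hf1 : ∀ᵐ ω ∂μ, ‖f ω‖ ≤ 1)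
    (T : H →L[ℂ] H) (hcomm : ∀ ω, T * R ω = R ω * T)
    (hT : ∀ n : ℕ, ∫ ω, f ω ^ n • R ω ∂μ = T ^ n) : ‖T‖ ≤ 2 := by
  by_contra hk
  push Not at hk
  set k : ℝ := ‖T‖ with hkdef
  set C : ℝ := ∫ ω, ‖R ω‖ ∂μ with hC
  have hC0 : 0 ≤ C := integral_nonneg fun _ => norm_nonneg _
  have mn : ∀ n : ℕ, AEStronglyMeasurable (fun ω => f ω ^ n) μ := fun n => hf.pow n
  have bn : ∀ n : ℕ, ∀ᵐ ω ∂μ, ‖f ω ^ n‖ ≤ 1 := by
    intro n
    filter_upwards [hf1] with ω h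
    rw [norm_pow]; exact pow_le_one₀ (norm_nonneg _) h
  have mcn : ∀ n : ℕ, AEStronglyMeasurable (fun ω => conj (f ω ^ n)) μ := fun n =>
    Complex.continuous_conj.comp_aestronglyMeasurable (mn n)
  have bcn : ∀ n : ℕ, ∀ᵐ ω ∂μ, ‖conj (f ω ^ n)‖ ≤ 1 := fun n => by simpa using bn n
  set E : ℕ → H →L[ℂ] H := fun n => ∫ ω, conj (f ω ^ n) • R ω ∂μ with hE
  have hTn : ∀ n : ℕ, ‖T ^ n‖ ≤ C := fun n => by
    rw [← hT n]; exact norm_integral_smul_kernel hR (bn n)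
  have hEn : ∀ n : ℕ, ‖E n‖ ≤ C := fun n => norm_integral_smul_kernel hR (bcn n)
  have hET : ∀ n : ℕ, T * E n = E n * T := by
    intro n
    have hi := integrable_smul_kernel hR (mcn n) (bcn n)
    have h1 := (ContinuousLinearMap.mul ℂ (H →L[ℂ] H) T).integral_comp_comm hi
    have h2 := ((ContinuousLinearMap.mul ℂ (H →L[ℂ] H)).flip T).integral_comp_comm hi
    simp only [ContinuousLinearMap.mul_apply', ContinuousLinearMap.flip_apply] at h1 h2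
    simp only [hE]
    rw [← h1, ← h2]
    congr 1
    ext1 ω
    rw [mul_smul_comm, smul_mul_assoc, hcomm]
  have h1 : ∫ ω, (1 : ℂ) • R ω ∂μ = 1 := by simpa using hT 0
  have hf' : ∫ ω, f ω • R ω ∂μ = T := by simpa using hT 1
  have hE1 : ∫ ω, conj (f ω) • R ω ∂μ = E 1 := by simp [hE]
  have hE0 : E 0 = 1 := by simpa [hE] using hT 0
  set c : ℝ := k - 1 with hc
  have hc1 : 1 < c := by linarith
  -- the estimate for every almost extremal vector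
  have main : ∀ e : ℝ, 0 < e → 0 ≤ k ^ 2 * (2 - k) + c * e ^ 2 + C ^ 2 * k * e := by
    intro e he
    obtain ⟨x, hx1, hx2, hx3⟩ := exists_almost_extremal T (by linarith) he
    rw [← hkdef] at hx2 hx3
    set m : ℕ → ℝ := fun n => (⟪x, E n ((T ^ n) x)⟫_ℂ).re with hm
    have hETx : ∀ n : ℕ, ‖E n ((T ^ n) x)‖ ≤ C ^ 2 := by
      intro n
      calc ‖E n ((T ^ n) x)‖ ≤ ‖E n‖ * ‖(T ^ n) x‖ := (E n).le_opNorm _
        _ ≤ ‖E n‖ * (‖T ^ n‖ * ‖x‖) := by gcongr; exact (T ^ n).le_opNorm _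
        _ ≤ C * (C * 1) := by rw [hx1]; gcongr; exacts [hEn n, hTn n]
        _ = C ^ 2 := by ring
    have hmb : ∀ n, -C ^ 2 ≤ m n := by
      intro n
      have h1 : |m n| ≤ ‖⟪x, E n ((T ^ n) x)⟫_ℂ‖ := Complex.abs_re_le_norm _
      have h2 := norm_inner_le_norm (𝕜 := ℂ) x (E n ((T ^ n) x))
      rw [hx1, one_mul] at h2
      have := neg_abs_le (m n)
      linarith [hETx n]
    set D : ℝ := ‖T x‖ ^ 2 - k * (‖T x‖ ^ 2 + m 1) + k ^ 2 with hD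
    have hre : ∀ w : H, (⟪w, w⟫_ℂ).re = ‖w‖ ^ 2 := fun w => by
      simpa using inner_self_eq_norm_sq (𝕜 := ℂ) w
    have hstep : ∀ (n : ℕ) (c' : ℝ), 0 ≤ c' ^ 2 * ‖(T ^ (n + 1)) x‖ ^ 2 +
        c' * ((1 - k) * ‖(T ^ (n + 1)) x‖ ^ 2 + (⟪T x, E n ((T ^ (n + 1)) x)⟫_ℂ).re
          - k * m (n + 1)) + D := by
      intro n c'
      have h := integrated hR hpos (mn n) hf (bn n) hf1 ((T ^ (n + 1)) x) (T x) x c' k
      have e1 : ∫ ω, (f ω ^ n * f ω) • R ω ∂μ = T ^ (n + 1) := by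
        rw [← hT (n + 1)]; simp only [pow_succ]
      have e2 : ∫ ω, (conj (f ω ^ n) * conj (f ω)) • R ω ∂μ = E (n + 1) := by
        simp only [hE, pow_succ, map_mul]
      have e3 : (T ^ n) (T x) = (T ^ (n + 1)) x := by rw [pow_succ]; rfl
      rw [h1, hf', hE1, e1, e2, hT n, e3] at h
      simp only [one_apply_eq_self, hre, hx1] at h
      have e4 : (⟪x, E 1 (T x)⟫_ℂ).re = m 1 := by simp [hm]
      rw [e4] at h
      have e5 : (⟪x, E (n + 1) ((T ^ (n + 1)) x)⟫_ℂ).re = m (n + 1) := rfl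
      rw [e5] at h
      convert h using 1
      simp only [hD, hE]
      ring
    have hD0 : 0 ≤ D := by simpa using hstep 0 0
    have hshift : ∀ n : ℕ, (⟪T x, E n ((T ^ (n + 1)) x)⟫_ℂ).re ≤ k ^ 2 * m n + k * e * C ^ 2 := by
      intro n
      have e1 : E n ((T ^ (n + 1)) x) = T (E n ((T ^ n) x)) := by
        have : E n * T ^ (n + 1) = T * (E n * T ^ n) := by
          rw [← mul_assoc, hET n, pow_succ', mul_assoc]
        exact congrArg (fun S : H →L[ℂ] H => S x) this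
      rw [e1, ← ContinuousLinearMap.adjoint_inner_left]
      set w := (ContinuousLinearMap.adjoint T) (T x) - ((k ^ 2 : ℝ) : ℂ) • x with hw
      have e2 : (ContinuousLinearMap.adjoint T) (T x) = ((k ^ 2 : ℝ) : ℂ) • x + w := by
        rw [hw]; abel
      rw [e2, inner_add_left, inner_smul_left, Complex.conj_ofReal, Complex.add_re,
        Complex.re_ofReal_mul]
      have h1 : (⟪w, E n ((T ^ n) x)⟫_ℂ).re ≤ ‖⟪w, E n ((T ^ n) x)⟫_ℂ‖ := Complex.re_le_norm _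
      have h2 := norm_inner_le_norm (𝕜 := ℂ) w (E n ((T ^ n) x))
      have h3 : ‖w‖ * ‖E n ((T ^ n) x)‖ ≤ k * e * C ^ 2 := by
        gcongr
        exact hETx n
      simp only [hm]
      linarith
    have hrec : ∀ n : ℕ, 0 ≤ c * (k ^ 2 * m n + k * e * C ^ 2 - k * m (n + 1)) + D := by
      intro n
      have h := hstep n c
      have h2 := hshift n
      have e1 : c ^ 2 * ‖(T ^ (n + 1)) x‖ ^ 2 +
        c * ((1 - k) * ‖(T ^ (n + 1)) x‖ ^ 2 + (⟪T x, E n ((T ^ (n + 1)) x)⟫_ℂ).re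
          - k * m (n + 1)) + D = c * ((⟪T x, E n ((T ^ (n + 1)) x)⟫_ℂ).re
          - k * m (n + 1)) + D := by rw [hc]; ring
      rw [e1] at h
      have : c * ((⟪T x, E n ((T ^ (n + 1)) x)⟫_ℂ).re - k * m (n + 1)) ≤
          c * (k ^ 2 * m n + k * e * C ^ 2 - k * m (n + 1)) := by gcongr
      linarith
    exact real_step k c e C D (‖T x‖ ^ 2) m hk hc he hC0 hx2 hD hD0 hmb hrec
  have hlim : Filter.Tendsto (fun e : ℝ => k ^ 2 * (2 - k) + c * e ^ 2 + C ^ 2 * k * e)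
      (nhdsWithin 0 (Set.Ioi 0)) (nhds (k ^ 2 * (2 - k) + c * 0 ^ 2 + C ^ 2 * k * 0)) := by
    apply Filter.Tendsto.mono_left _ nhdsWithin_le_nhds
    apply Continuous.tendsto
    fun_prop
  have h0 := ge_of_tendsto hlim (eventually_nhdsWithin_of_forall fun e he => main e he)
  have : k ^ 2 * (2 - k) < 0 := mul_neg_of_pos_of_neg (by positivity) (by linarith)
  nlinarith

end

end Vale.Agent.P123
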