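import Vale.Agent.P123.Polygon

/-!
Circumscribed polygons of a compact convex planar set.
-/

open Complex
open scoped ComplexConjugate

namespace Vale.Agent.P123

theorem exists_polygon {K : Set ℂ} (hK : IsCompact K) (hne : K.Nonempty) (hconv : Convex ℝ K)
    {d D : ℝ} {N : ℕ} (hd0 : 0 < d) (hd : d < Real.pi / 2) (hN : N * d = 2 * Real.pi)
    (hD : ∀ z ∈ K, ∀ z' ∈ K, ‖z - z'‖ ≤ D) :
    ∃ (v : ℕ → ℂ) (l : ℕ → ℝ), v N = v 0 ∧ (∀ j, 0 ≤ l j) ∧
      (∀ j, v (j + 1) - v j = I * nrm d j * l j) ∧
      (∀ j, ∀ z ∈ K, 0 ≤ (conj (nrm d j) * (v j - z)).re) ∧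
      ∀ j, ∃ w ∈ K, ‖v j - w‖ ≤ D * Real.tan d := by
  have hmax : ∀ n : ℂ, ∃ p ∈ K, ∀ z ∈ K, (conj n * z).re ≤ (conj n * p).re := by
    intro n
    obtain ⟨p, hp, h⟩ := hK.exists_isMaxOn hne (f := fun z => (conj n * z).re) (by fun_prop)
    exact ⟨p, hp, fun z hz => h hz⟩
  choose p hpK hp using hmax
  set h : ℂ → ℝ := fun n => (conj n * p n).re with hh
  have hsin : 0 < Real.sin d := Real.sin_pos_of_pos_of_lt_pi hd0 (by linarith [Real.pi_pos])
  have hcos : 0 < Real.cos d := Real.cos_pos_of_mem_Ioo ⟨by linarith, hd⟩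
  set c := Real.cos d with hc
  set s := Real.sin d with hs
  have hcs : c ^ 2 + s ^ 2 = 1 := Real.cos_sq_add_sin_sq d
  have hcs' : (c : ℂ) ^ 2 + (s : ℂ) ^ 2 = 1 := by exact_mod_cast hcs
  have hE : Complex.exp ((d : ℂ) * I) = c + s * I := by
    rw [Complex.exp_mul_I, hc, hs]; push_cast; rfl
  have hs' : (s : ℂ) ≠ 0 := by exact_mod_cast hsin.ne'
  set E : ℂ := c + s * I with hEdef
  set E' : ℂ := c - s * I with hE'def
  have hEE : E * E' = 1 := by
    rw [hEdef, hE'def]
    linear_combination hcs' - (s : ℂ) ^ 2 * Complex.I_sq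
  have hreE : ∀ n z : ℂ, (conj (n * E) * z).re = (conj n * z).re * c + (conj n * z).im * s := by
    intro n z
    rw [map_mul, mul_comm (conj n), mul_assoc]
    generalize conj n * z = q
    simp [hEdef]
    ring
  have hreE' : ∀ n z : ℂ, (conj (n * E') * z).re = (conj n * z).re * c - (conj n * z).im * s := by
    intro n z
    rw [map_mul, mul_comm (conj n), mul_assoc]
    generalize conj n * z = q
    simp [hE'def]
    ring
  set a : ℂ → ℝ := fun n => (h (n * E) - h n * c) / s with ha
  set b : ℂ → ℝ := fun n => (h (n * E') - h n * c) / s with hb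
  set V : ℂ → ℂ := fun n => n * (h n - I * b n) with hV
  have hVE : ∀ n, V (n * E) = n * (h n + I * a n) := by
    intro n
    simp only [hV, hb, ha, mul_assoc n E E', hEE, mul_one]
    rw [mul_assoc]
    congr 1
    generalize h (n * E) = u
    push_cast
    field_simp
    rw [hEdef]
    linear_combination (I * (u : ℂ)) * hcs' - ((s : ℂ) * (h n - u * c)) * Complex.I_sq
  have hba : ∀ n, (conj n * p n).im ≤ a n := by
    intro n
    have := hp (n * E) (p n) (hpK n)
    rw [hreE] at this
    simp only [ha]
    rw [le_div_iff₀ hsin]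
    simp only [hh]
    linarith
  have hbb : ∀ n, -b n ≤ (conj n * p n).im := by
    intro n
    have := hp (n * E') (p n) (hpK n)
    rw [hreE'] at this
    simp only [hb]
    rw [neg_le, le_div_iff₀ hsin]
    simp only [hh]
    linarith
  have hcoord : ∀ j, conj (nrm d j) * V (nrm d j) = h (nrm d j) - I * b (nrm d j) := by
    intro j
    simp only [hV]
    rw [← mul_assoc, conj_nrm_mul, one_mul]
  refine ⟨fun j => V (nrm d j), fun j => a (nrm d j) + b (nrm d j), ?_, ?_, ?_, ?_, ?_⟩
  · have h4 : nrm d N = nrm d 0 := by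
      rw [nrm, nrm, hN]
      simp
    simp only [h4]
  · intro j
    linarith [hba (nrm d j), hbb (nrm d j)]
  · intro j
    simp only
    rw [nrm_succ, hE, hVE]
    simp only [hV]
    push_cast
    ring
  · intro j z hz
    simp only
    rw [mul_sub, hcoord, Complex.sub_re]
    have := hp (nrm d j) z hz
    simp only [hh]
    simpa using this
  · intro j
    set n := nrm d j with hn
    have hnn : conj n * n = 1 := conj_nrm_mul d j
    have hn1 : ‖n‖ = 1 := norm_nrm d j
    set z := p n with hz
    set z' := p (n * E') with hz'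
    have h1 : -b n ≤ (conj n * z).im := hbb n
    have h2 : (conj n * z').re ≤ h n := hp n z' (hpK _)
    have h3 : (conj n * z').re * c - (conj n * z').im * s = h (n * E') := (hreE' n z').symm
    have h4 : b n * s = h (n * E') - h n * c := by
      simp only [hb]; field_simp
    have h5 : (h n - (conj n * z').re) * c = (-b n - (conj n * z').im) * s := by linarith
    have h6 : (conj n * z').im ≤ -b n := by
      have : 0 ≤ (-b n - (conj n * z').im) * s := by rw [← h5]; nlinarith
      have := nonneg_of_mul_nonneg_left this hsin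
      linarith
    have h7 : (conj n * z).im - (conj n * z').im ≤ D := by
      rw [← Complex.sub_im, ← mul_sub]
      refine (Complex.im_le_norm _).trans ?_
      rw [norm_mul, Complex.norm_conj, hn1, one_mul]
      exact hD _ (hpK _) _ (hpK _)
    obtain ⟨r, hr, hr2⟩ : ∃ r ∈ Set.Icc (0 : ℝ) 1,
        (1 - r) * (conj n * z).im + r * (conj n * z').im = -b n := by
      have := (convex_Icc (𝕜 := ℝ) ((conj n * z').im) ((conj n * z).im))
      rcases (h6.trans h1).eq_or_lt with h0 | h0
      · exact ⟨0, by simp, by linarith⟩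
      · have hpos : 0 < (conj n * z).im - (conj n * z').im := by linarith
        refine ⟨((conj n * z).im + b n) / ((conj n * z).im - (conj n * z').im),
          ⟨div_nonneg (by linarith) hpos.le, (div_le_one hpos).mpr (by linarith)⟩, ?_⟩
        field_simp
        ring
    refine ⟨(1 - r) • z + r • z', hconv (hpK _) (hpK _) (by linarith [hr.2]) hr.1 (by ring), ?_⟩
    have h8 : conj n * (V n - ((1 - r) • z + r • z')) =
        ((r * (h n - (conj n * z').re) : ℝ) : ℂ) := by
      have e1 : conj n * (V n - ((1 - r) • z + r • z')) =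
          (h n - I * b n) - (((1 - r : ℝ) : ℂ) * (conj n * z) + (r : ℂ) * (conj n * z')) := by
        rw [mul_sub, hcoord j]
        simp only [Complex.real_smul]
        ring
      have e2 : (conj n * z).re = h n := rfl
      rw [e1]
      apply Complex.ext
      · simp only [Complex.sub_re, Complex.add_re, Complex.re_ofReal_mul, Complex.ofReal_re, e2,
          Complex.I_mul_re, Complex.ofReal_im]
        ring
      · simp only [Complex.sub_im, Complex.add_im, Complex.im_ofReal_mul, Complex.ofReal_im,
          Complex.I_mul_im, Complex.ofReal_re]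
        linarith
    have h9 : ‖V n - ((1 - r) • z + r • z')‖ = r * (h n - (conj n * z').re) := by
      have := congrArg norm h8
      rw [norm_mul, Complex.norm_conj, hn1, one_mul, Complex.norm_real, Real.norm_eq_abs,
        abs_of_nonneg (mul_nonneg hr.1 (by linarith))] at this
      exact this
    simp only
    rw [h9, Real.tan_eq_sin_div_cos, ← hs, ← hc, ← mul_div_assoc, le_div_iff₀ hcos]
    have h10 : 0 ≤ (h n - (conj n * z').re) * c := mul_nonneg (by linarith) hcos.le
    have h11 : (-b n - (conj n * z').im) * s ≤ D * s := by gcongr; linarith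
    nlinarith [hr.1, hr.2]

end Vale.Agent.P123
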