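import Vale.Agent.P123.Bound
import Vale.Agent.P123.Geometry

/-!
The numerical range is a spectral set with constant two.
-/

open Complex
open scoped InnerProductSpace ComplexConjugate

namespace Vale.Agent.P123

variable {H : Type*} [NormedAddCommGroup H] [InnerProductSpace ℂ H] [CompleteSpace H]

lemma exists_angle {D r : ℝ} (hr : 0 < r) :
    ∃ (N : ℕ) (d : ℝ), 0 < d ∧ d < Real.pi / 2 ∧ N * d = 2 * Real.pi ∧ D * Real.tan d < r := by
  have hpi := Real.pi_pos
  have h1 : Filter.Tendsto (fun N : ℕ => 2 * Real.pi / N) Filter.atTop (nhds 0) :=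
    tendsto_const_div_atTop_nhds_zero_nat _
  have h2 : ContinuousAt (fun d => D * Real.tan d) 0 :=
    continuousAt_const.mul (Real.continuousAt_tan.mpr (by simp))
  have h3 := h2.tendsto.comp h1
  simp only [Real.tan_zero, mul_zero] at h3
  obtain ⟨N, hN1, hN2, hN3⟩ := ((h3.eventually (gt_mem_nhds hr)).and
    ((h1.eventually (gt_mem_nhds (show (0 : ℝ) < Real.pi / 2 by positivity))).and
      (Filter.eventually_gt_atTop 0))).exists
  have hN' : (0 : ℝ) < N := by exact_mod_cast hN3
  exact ⟨N, 2 * Real.pi / N, by positivity, hN2, by field_simp, hN1⟩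

theorem bound_of_lt (A : H →L[ℂ] H) (hne : (numRange A).Nonempty) (P : Polynomial ℂ)
    (hP : ∀ z ∈ closure (numRange A), ‖P.eval z‖ < 1) : ‖Polynomial.aeval A P‖ ≤ 2 := by
  have hbd : Bornology.IsBounded (numRange A) :=
    (Metric.isBounded_closedBall (x := (0 : ℂ)) (r := ‖A‖)).subset fun z hz => by
      simpa using norm_le_of_mem_numRange A hz
  have hcp : IsCompact (closure (numRange A)) := hbd.isCompact_closure
  have hU : IsOpen {z : ℂ | ‖P.eval z‖ < 1} := isOpen_lt (by fun_prop) continuous_const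
  obtain ⟨r, hr, hsub⟩ := hcp.exists_thickening_subset_open hU hP
  set K := Metric.cthickening (r / 3) (numRange A) with hK
  have hKc : IsCompact K := Metric.isCompact_of_isClosed_isBounded Metric.isClosed_cthickening
    hbd.cthickening
  have hKconv : Convex ℝ K := (convex_numRange A).cthickening _
  have hKne : K.Nonempty := hne.mono (Metric.self_subset_cthickening _)
  obtain ⟨D, hD⟩ := Metric.isBounded_iff.mp hKc.isBounded
  obtain ⟨N, d, hd0, hd, hN, hDr⟩ := exists_angle (D := D) (show 0 < r / 3 by positivity)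
  obtain ⟨v, l, hper, hl, hv, hsep, hclose⟩ := exists_polygon hKc hKne hKconv hd0 hd hN
    (fun z hz z' hz' => by rw [← dist_eq_norm]; exact hD hz hz')
  have hvU : ∀ j, v j ∈ Metric.thickening r (closure (numRange A)) := by
    intro j
    obtain ⟨w, hw, hw2⟩ := hclose j
    have h1 : w ∈ Metric.thickening (2 * r / 3) (numRange A) :=
      Metric.cthickening_subset_thickening' (by positivity) (by linarith) _ hw
    obtain ⟨z, hz, hz2⟩ := Metric.mem_thickening_iff.mp h1
    refine Metric.mem_thickening_iff.mpr ⟨z, subset_closure hz, ?_⟩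
    have := dist_triangle (v j) w z
    rw [dist_eq_norm (v j) w] at this
    linarith
  refine polygon_bound (e := r / 3) hper hd0.le hd.le hN (by positivity) hl hv ?_ hne P ?_
  · intro j z hz
    have h1 : z + ((r / 3 : ℝ) : ℂ) * nrm d j ∈ K := by
      refine Metric.mem_cthickening_of_dist_le _ z _ _ hz ?_
      rw [dist_eq_norm, add_sub_cancel_left, norm_mul, norm_nrm, mul_one, Complex.norm_real,
        Real.norm_eq_abs, abs_of_pos (by positivity)]
    have h2 := hsep j _ h1
    have e1 : conj (nrm d j) * (v j - (z + ((r / 3 : ℝ) : ℂ) * nrm d j)) =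
        conj (nrm d j) * (v j - z) - ((r / 3 : ℝ) : ℂ) := by
      linear_combination (-((r / 3 : ℝ) : ℂ)) * conj_nrm_mul d j
    rw [e1, Complex.sub_re, Complex.ofReal_re] at h2
    linarith
  · intro j t ht
    have hc : Convex ℝ (Metric.thickening r (closure (numRange A))) :=
      (convex_numRange A).closure.thickening r
    have h1 := hc (hvU j) (hvU (j + 1)) (a := 1 - t) (b := t) (by linarith [ht.2]) ht.1.le
      (by ring)
    have e1 : (1 - t) • v j + t • v (j + 1) = edge v j t := by
      simp only [edge, Complex.real_smul]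
      push_cast
      ring
    rw [e1] at h1
    exact (hsub h1).le

theorem bound_of_le (A : H →L[ℂ] H) (hne : (numRange A).Nonempty) (P : Polynomial ℂ) {M : ℝ}
    (hP : ∀ z ∈ numRange A, ‖P.eval z‖ ≤ M) : ‖Polynomial.aeval A P‖ ≤ 2 * M := by
  have hM0 : 0 ≤ M := by
    obtain ⟨z, hz⟩ := hne
    exact (norm_nonneg _).trans (hP z hz)
  have hP' : ∀ z ∈ closure (numRange A), ‖P.eval z‖ ≤ M := fun z hz =>
    closure_minimal (s := numRange A) (t := {z : ℂ | ‖P.eval z‖ ≤ M}) hP
      (isClosed_le (by fun_prop) continuous_const) hz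
  refine le_of_forall_pos_le_add fun e he => ?_
  have hpos : 0 < M + e / 2 := by positivity
  have h := bound_of_lt A hne ((((M + e / 2)⁻¹ : ℝ) : ℂ) • P) (fun z hz => by
    rw [Polynomial.eval_smul, norm_smul, Complex.norm_real, Real.norm_eq_abs,
      abs_of_pos (inv_pos.mpr hpos), inv_mul_lt_iff₀ hpos]
    linarith [hP' z hz])
  rw [map_smul, norm_smul, Complex.norm_real, Real.norm_eq_abs, abs_of_pos (inv_pos.mpr hpos),
    inv_mul_le_iff₀ hpos] at h
  linarith

theorem crouzeix [Nontrivial H] (A : H →L[ℂ] H) (P : Polynomial ℂ) :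
    ‖Polynomial.aeval A P‖ ≤
      2 * sSup ((fun z => ‖P.eval z‖) '' {z : ℂ | ∃ x : H, ‖x‖ = 1 ∧ ⟪x, A x⟫_ℂ = z}) := by
  have hne : (numRange A).Nonempty := by
    obtain ⟨x, hx⟩ := exists_norm_eq H (zero_le_one' ℝ)
    exact ⟨_, x, hx, rfl⟩
  refine bound_of_le A hne P fun z hz => le_csSup ?_ ⟨z, hz, rfl⟩
  have hc : IsCompact ((fun z => ‖P.eval z‖) '' Metric.closedBall (0 : ℂ) ‖A‖) :=
    (isCompact_closedBall _ _).image (by fun_prop)
  refine hc.bddAbove.mono (Set.image_mono fun z hz => ?_)
  simpa using norm_le_of_mem_numRange A hz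

end Vale.Agent.P123
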